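import Vale.Agent.P181.FL2.Defs

set_option autoImplicit false

/-!
# P181, FL2 [DOM2]: the disjointness argument (helper172)
-/

open scoped BigOperators

namespace Vale.Agent.P181.FL2.H172

open Finset
open Vale.Agent.P181.FL (Pos)

/-! ### The union bound -/

theorem card_two {N Q : ℕ} {i j : Fin N} (hij : i ≠ j) (l l' : Fin Q) :
    #{v : Fin N → Fin Q | v i = l ∧ v j = l'} * Q ^ 2 = Q ^ N := by
  classical
  have h1 : ({v : Fin N → Fin Q | v i = l ∧ v j = l'} : Finset _) =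
      Fintype.piFinset fun t => if t = i then {l} else if t = j then {l'} else univ := by
    ext v
    simp only [mem_filter, mem_univ, true_and, Fintype.mem_piFinset]
    constructor
    · rintro ⟨ha, hb⟩ t
      by_cases hi : t = i
      · subst hi
        simp [ha]
      · by_cases hj : t = j
        · subst hj
          simp [hi, hb]
        · simp [hi, hj]
    · intro h
      constructor
      · have := h i
        simpa using this
      · have := h j
        simpa [hij.symm] using this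
  rw [h1, Fintype.card_piFinset]
  have h2 : ∀ f : Fin N → ℕ, ∏ t, f t = f i * (f j * ∏ t ∈ (univ.erase i).erase j, f t) := by
    intro f
    rw [Finset.mul_prod_erase (univ.erase i) f (by simp [hij.symm]),
      Finset.mul_prod_erase univ f (mem_univ i)]
  have h3 : Q ^ N = ∏ _t : Fin N, Q := by simp
  rw [h3, h2, h2 (fun _ => Q)]
  have h4 : ∏ t ∈ (univ.erase i).erase j,
      #(if t = i then ({l} : Finset (Fin Q)) else if t = j then {l'} else univ) =
      ∏ t ∈ (univ.erase i).erase j, Q := by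
    refine Finset.prod_congr rfl fun t ht => ?_
    have h5 : t ≠ j := (Finset.mem_erase.1 ht).1
    have h6 : t ≠ i := (Finset.mem_erase.1 (Finset.mem_erase.1 ht).2).1
    simp [h5, h6]
  rw [h4]
  simp only [if_true, hij.symm, if_false, card_singleton]
  ring

theorem card_not {N Q : ℕ} (hQ : 1 ≤ Q) {i j : Fin N} (hij : i ≠ j) (l l' : Fin Q) :
    ((#{v : Fin N → Fin Q | ¬ (v i = l ∧ v j = l')} : ℕ) : ℝ) =
      (1 - 1 / (Q : ℝ) ^ 2) * (Q : ℝ) ^ N := by
  have h1 := card_two hij l l'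
  have h2 : #{v : Fin N → Fin Q | v i = l ∧ v j = l'} +
      #{v : Fin N → Fin Q | ¬ (v i = l ∧ v j = l')} = Q ^ N := by
    rw [Finset.card_filter_add_card_filter_not]
    simp
  have h3 : (#{v : Fin N → Fin Q | v i = l ∧ v j = l'} : ℝ) * (Q : ℝ) ^ 2 = (Q : ℝ) ^ N := by
    exact_mod_cast h1
  have h4 : (#{v : Fin N → Fin Q | v i = l ∧ v j = l'} : ℝ) +
      (#{v : Fin N → Fin Q | ¬ (v i = l ∧ v j = l')} : ℝ) = (Q : ℝ) ^ N := by
    exact_mod_cast h2
  have hQ' : (Q : ℝ) ^ 2 ≠ 0 := by positivity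
  have h5 : (#{v : Fin N → Fin Q | v i = l ∧ v j = l'} : ℝ) = (Q : ℝ) ^ N / (Q : ℝ) ^ 2 := by
    rw [eq_div_iff hQ', h3]
  rw [h5] at h4
  have h6 : (#{v : Fin N → Fin Q | ¬ (v i = l ∧ v j = l')} : ℝ) =
      (Q : ℝ) ^ N - (Q : ℝ) ^ N / (Q : ℝ) ^ 2 := by linarith
  rw [h6]
  ring

theorem card_bad {N M Q : ℕ} (hQ : 1 ≤ Q) {i j : Fin N} (hij : i ≠ j) (l l' : Fin Q)
    (I : Finset (Fin M)) (s : ℕ) (hs : s ≤ #I) :
    ((#{g : Fin M → Fin N → Fin Q | ∀ x ∈ I, ¬ (g x i = l ∧ g x j = l')} : ℕ) : ℝ) ≤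
      (1 - 1 / (Q : ℝ) ^ 2) ^ s * ((Q : ℝ) ^ N) ^ M := by
  classical
  have h1 : ({g : Fin M → Fin N → Fin Q | ∀ x ∈ I, ¬ (g x i = l ∧ g x j = l')} : Finset _) =
      Fintype.piFinset fun x => if x ∈ I then
        ({v : Fin N → Fin Q | ¬ (v i = l ∧ v j = l')} : Finset _) else univ := by
    ext g
    simp only [mem_filter, mem_univ, true_and, Fintype.mem_piFinset]
    constructor
    · intro h x
      by_cases hx : x ∈ I
      · rw [if_pos hx, mem_filter]
        exact ⟨mem_univ _, h x hx⟩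
      · rw [if_neg hx]
        exact mem_univ _
    · intro h x hx
      have := h x
      rw [if_pos hx, mem_filter] at this
      exact this.2
  have hr0 : 0 ≤ 1 - 1 / (Q : ℝ) ^ 2 := by
    have : (1 : ℝ) ≤ (Q : ℝ) ^ 2 := one_le_pow₀ (by exact_mod_cast hQ)
    have h2 : 1 / (Q : ℝ) ^ 2 ≤ 1 := by
      rw [div_le_one (by linarith)]
      exact this
    linarith
  have hr1 : 1 - 1 / (Q : ℝ) ^ 2 ≤ 1 := by
    have : 0 ≤ 1 / (Q : ℝ) ^ 2 := by positivity
    linarith
  rw [h1, Fintype.card_piFinset, Nat.cast_prod]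
  have h3 : ∀ x : Fin M, ((#(if x ∈ I then
        ({v : Fin N → Fin Q | ¬ (v i = l ∧ v j = l')} : Finset _) else univ) : ℕ) : ℝ) =
      (if x ∈ I then (1 - 1 / (Q : ℝ) ^ 2) else 1) * (Q : ℝ) ^ N := by
    intro x
    by_cases hx : x ∈ I
    · rw [if_pos hx, if_pos hx, card_not hQ hij]
    · rw [if_neg hx, if_neg hx]
      simp
  rw [Finset.prod_congr rfl fun x _ => h3 x, Finset.prod_mul_distrib]
  rw [Finset.prod_ite_mem, Finset.univ_inter, Finset.prod_const, Finset.prod_const, card_univ,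
    Fintype.card_fin]
  exact mul_le_mul_of_nonneg_right (pow_le_pow_of_le_one hr0 hr1 hs) (by positivity)

theorem union_bound {N M Q : ℕ} (hQ : 1 ≤ Q) (B : Fin N → Finset (Fin M)) (s : ℕ)
    (hs : ∀ i j, i < j → s ≤ #(B i ∩ B j))
    (hlt : (N : ℝ) ^ 2 * (Q : ℝ) ^ 2 * (1 - 1 / (Q : ℝ) ^ 2) ^ s < 1) :
    ∃ g : Fin M → Fin N → Fin Q, ∀ i j, i < j → ∀ l l', ∃ x ∈ B i ∩ B j, g x i = l ∧ g x j = l' := by
  classical
  by_contra hc
  push Not at hc
  let bad : (Fin N × Fin N) × (Fin Q × Fin Q) → Finset (Fin M → Fin N → Fin Q) := fun τ =>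
    if τ.1.1 < τ.1.2 then
      ({g : Fin M → Fin N → Fin Q |
        ∀ x ∈ B τ.1.1 ∩ B τ.1.2, ¬ (g x τ.1.1 = τ.2.1 ∧ g x τ.1.2 = τ.2.2)} : Finset _)
    else ∅
  have h1 : (univ : Finset (Fin M → Fin N → Fin Q)) ⊆ univ.biUnion bad := by
    intro g _
    obtain ⟨i, j, hij, l, l', h⟩ := hc g
    rw [mem_biUnion]
    refine ⟨((i, j), (l, l')), mem_univ _, ?_⟩
    simp only [bad, if_pos hij, mem_filter, mem_univ, true_and]
    rintro x hx ⟨ha, hb⟩
    exact h x hx ha hb
  have h2 := (card_le_card h1).trans card_biUnion_le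
  have h3 : ((Q : ℝ) ^ N) ^ M ≤ ∑ τ, (#(bad τ) : ℝ) := by
    have h4 : #(univ : Finset (Fin M → Fin N → Fin Q)) = (Q ^ N) ^ M := by simp
    rw [h4] at h2
    exact_mod_cast h2
  have h5 : ∀ τ, (#(bad τ) : ℝ) ≤ (1 - 1 / (Q : ℝ) ^ 2) ^ s * ((Q : ℝ) ^ N) ^ M := by
    intro τ
    by_cases h : τ.1.1 < τ.1.2
    · simp only [bad, if_pos h]
      exact card_bad hQ h.ne _ _ _ s (hs _ _ h)
    · simp only [bad, if_neg h, card_empty, Nat.cast_zero]
      have hr0 : 0 ≤ 1 - 1 / (Q : ℝ) ^ 2 := by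
        have : (1 : ℝ) ≤ (Q : ℝ) ^ 2 := one_le_pow₀ (by exact_mod_cast hQ)
        have h2 : 1 / (Q : ℝ) ^ 2 ≤ 1 := by
          rw [div_le_one (by linarith)]
          exact this
        linarith
      positivity
  have h6 : ((Q : ℝ) ^ N) ^ M ≤
      ((N : ℝ) ^ 2 * (Q : ℝ) ^ 2) * ((1 - 1 / (Q : ℝ) ^ 2) ^ s * ((Q : ℝ) ^ N) ^ M) := by
    refine h3.trans ((Finset.sum_le_sum fun τ _ => h5 τ).trans ?_)
    rw [Finset.sum_const, card_univ, nsmul_eq_mul]
    refine le_of_eq ?_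
    simp only [Fintype.card_prod, Fintype.card_fin]
    push_cast
    ring
  have h7 : 0 < ((Q : ℝ) ^ N) ^ M := by
    have : (0 : ℝ) < Q := by exact_mod_cast hQ
    positivity
  have h8 : ((N : ℝ) ^ 2 * (Q : ℝ) ^ 2) * ((1 - 1 / (Q : ℝ) ^ 2) ^ s * ((Q : ℝ) ^ N) ^ M) <
      1 * ((Q : ℝ) ^ N) ^ M := by
    rw [← mul_assoc]
    exact mul_lt_mul_of_pos_right hlt h7
  linarith

theorem bound_aux {N q s : ℕ} (hq : 1 ≤ q)
    (hs : 8 * (q : ℝ) ^ 2 * Real.log (2 * q * N) ≤ s) :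
    (N : ℝ) ^ 2 * ((2 * q - 1 : ℕ) : ℝ) ^ 2 * (1 - 1 / ((2 * q - 1 : ℕ) : ℝ) ^ 2) ^ s < 1 := by
  rcases Nat.eq_zero_or_pos N with hN | hN
  · subst hN
    simp
  set Q : ℝ := ((2 * q - 1 : ℕ) : ℝ) with hQ
  have hQ1 : (1 : ℝ) ≤ Q := by
    rw [hQ]
    exact_mod_cast (by omega : 1 ≤ 2 * q - 1)
  have hQ2 : Q < 2 * q := by
    rw [hQ]
    have : (2 * q - 1 : ℕ) < 2 * q := by omega
    exact_mod_cast this
  have hq0 : (0 : ℝ) < q := by exact_mod_cast hq
  have hN0 : (1 : ℝ) ≤ N := by exact_mod_cast hN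
  have hx : (1 : ℝ) ≤ 2 * q * N := by
    have : (1 : ℝ) ≤ q := by exact_mod_cast hq
    nlinarith
  have hlog : 0 ≤ Real.log (2 * q * N) := Real.log_nonneg hx
  have h1 : (1 - 1 / Q ^ 2) ^ s ≤ Real.exp (-(2 * Real.log (2 * q * N))) := by
    have h2 : 1 - 1 / Q ^ 2 ≤ Real.exp (-(1 / Q ^ 2)) := by
      have := Real.add_one_le_exp (-(1 / Q ^ 2))
      linarith
    have h3 : 0 ≤ 1 - 1 / Q ^ 2 := by
      have : 1 / Q ^ 2 ≤ 1 := by
        rw [div_le_one (by positivity)]
        nlinarith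
      linarith
    refine (pow_le_pow_left₀ h3 h2 s).trans ?_
    rw [← Real.exp_nat_mul]
    refine Real.exp_le_exp.2 ?_
    have h4 : 2 * Real.log (2 * q * N) ≤ s * (1 / Q ^ 2) := by
      have h5 : Q ^ 2 ≤ 4 * (q : ℝ) ^ 2 := by nlinarith
      have h6 : 2 * Real.log (2 * q * N) * Q ^ 2 ≤ s := by
        nlinarith
      rw [mul_one_div, le_div_iff₀ (by positivity)]
      exact h6
    linarith
  have h7 : Real.exp (-(2 * Real.log (2 * q * N))) = ((2 * q * N : ℝ) ^ 2)⁻¹ := by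
    rw [Real.exp_neg, two_mul, Real.exp_add, Real.exp_log (by linarith)]
    ring
  have h8 : (N : ℝ) ^ 2 * Q ^ 2 * (1 - 1 / Q ^ 2) ^ s ≤
      (N : ℝ) ^ 2 * Q ^ 2 * ((2 * q * N : ℝ) ^ 2)⁻¹ := by
    rw [← h7]
    exact mul_le_mul_of_nonneg_left h1 (by positivity)
  refine h8.trans_lt ?_
  rw [← div_eq_mul_inv, div_lt_one (by positivity)]
  have h9 : Q ^ 2 < (2 * (q : ℝ)) ^ 2 := by nlinarith
  calc (N : ℝ) ^ 2 * Q ^ 2 < (N : ℝ) ^ 2 * (2 * (q : ℝ)) ^ 2 :=
        mul_lt_mul_of_pos_left h9 (by positivity)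
    _ = (2 * q * N : ℝ) ^ 2 := by ring

/-! ### Balanced blocks -/

theorem exists_classes {q m : ℕ} (hq : 1 ≤ q) (L : Fin q × Fin m → Fin (2 * q - 1)) :
    ∃ l : Fin q → Fin (2 * q - 1), Function.Injective l ∧ ∀ k, #{p | L p = l k} ≤ m := by
  classical
  have h1 : ∑ l : Fin (2 * q - 1), #{p | L p = l} = q * m := by
    rw [← Finset.card_eq_sum_card_fiberwise (f := L) (s := univ) (t := univ) (fun _ _ => mem_univ _)]
    simp
  have h2 : #{l : Fin (2 * q - 1) | ¬ #{p | L p = l} ≤ m} < q := by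
    by_contra hc
    rw [not_lt] at hc
    have h3 : #{l : Fin (2 * q - 1) | ¬ #{p | L p = l} ≤ m} * (m + 1) ≤
        ∑ l ∈ ({l : Fin (2 * q - 1) | ¬ #{p | L p = l} ≤ m} : Finset _), #{p | L p = l} := by
      rw [← smul_eq_mul]
      refine Finset.card_nsmul_le_sum _ _ _ fun l hl => ?_
      have := (mem_filter.1 hl).2
      omega
    have h4 : ∑ l ∈ ({l : Fin (2 * q - 1) | ¬ #{p | L p = l} ≤ m} : Finset _), #{p | L p = l} ≤
        q * m := by
      rw [← h1]
      exact Finset.sum_le_sum_of_subset (Finset.filter_subset _ _)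
    have h5 : q * (m + 1) ≤ q * m := (Nat.mul_le_mul_right _ hc).trans (h3.trans h4)
    have h6 : q * (m + 1) = q * m + q := by ring
    omega
  have h7 : q ≤ #{l : Fin (2 * q - 1) | #{p | L p = l} ≤ m} := by
    have h8 := Finset.card_filter_add_card_filter_not (s := (univ : Finset (Fin (2 * q - 1))))
      (fun l => #{p | L p = l} ≤ m)
    rw [card_univ, Fintype.card_fin] at h8
    omega
  refine ⟨fun k => Finset.orderEmbOfCardLe _ h7 k, ?_, ?_⟩
  · exact (Finset.orderEmbOfCardLe _ h7).injective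
  · intro k
    have := Finset.orderEmbOfCardLe_mem _ h7 k
    exact (mem_filter.1 this).2

theorem balance {q m : ℕ} (hq : 1 ≤ q) (L : Fin q × Fin m → Fin (2 * q - 1)) :
    ∃ (σ : Equiv.Perm (Fin q × Fin m)) (l : Fin q → Fin (2 * q - 1)),
      ∀ p k, L p = l k → (σ p).1 = k := by
  classical
  obtain ⟨l, hl, hm⟩ := exists_classes hq L
  have he : ∀ k, Nonempty ({p // L p = l k} ↪ Fin m) := by
    intro k
    refine Function.Embedding.nonempty_of_card_le ?_
    rw [Fintype.card_fin, Fintype.card_subtype]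
    exact hm k
  let e : ∀ k, {p // L p = l k} ↪ Fin m := fun k => (he k).some
  let f : {p // ∃ k, L p = l k} → Fin q × Fin m := fun p =>
    (p.2.choose, e p.2.choose ⟨p.1, p.2.choose_spec⟩)
  have hf : Function.Injective f := by
    rintro ⟨p, hp⟩ ⟨p', hp'⟩ h
    simp only [f, Prod.mk.injEq] at h
    obtain ⟨h1, h2⟩ := h
    have h3 : ∀ (k k' : Fin q) (hk : L p = l k) (hk' : L p' = l k'), k = k' →
        e k ⟨p, hk⟩ = e k' ⟨p', hk'⟩ → p = p' := by
      intro k k' hk hk' hkk h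
      subst hkk
      have := (e k).injective h
      simpa using this
    have := h3 _ _ _ _ h1 h2
    subst this
    rfl
  let e' : {p // ∃ k, L p = l k} ≃ {y // y ∈ Set.range f} := Equiv.ofInjective f hf
  refine ⟨e'.extendSubtype, l, fun p k h => ?_⟩
  have hp : ∃ k, L p = l k := ⟨k, h⟩
  rw [Equiv.extendSubtype_apply_of_mem e' p hp]
  have h4 : ((e' ⟨p, hp⟩ : {y // y ∈ Set.range f}) : Fin q × Fin m) = f ⟨p, hp⟩ := rfl
  rw [h4]
  show hp.choose = k
  exact hl (hp.choose_spec.symm.trans h)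

/-! ### Uniqueness -/

theorem slots_of_disj {N q m M : ℕ} (hq : 0 < q) (c : Pos N q m → Fin M)
    (h : ∀ i j : Fin N, i < j → ∀ k : Fin q, ∃ t t', c ((i, ⟨0, hq⟩), t) = c ((j, k), t'))
    (g : Equiv.Perm (Fin N × Fin q))
    (hinj : ∀ (i : Fin N) (k k' : Fin q) (t t' : Fin m),
      c (g (i, k), t) = c (g (i, k'), t') → k = k') :
    ∀ p p' : Fin N × Fin q, p.1 = p'.1 → (g p).1 = (g p').1 := by
  have hg : ∀ i : Fin N, g ((g.symm (i, ⟨0, hq⟩)).1, (g.symm (i, ⟨0, hq⟩)).2) = (i, ⟨0, hq⟩) := by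
    intro i
    rw [Prod.mk.eta, Equiv.apply_symm_apply]
  have key : ∀ i : Fin N, ∀ k', (g ((g.symm (i, ⟨0, hq⟩)).1, k')).1 = i := by
    intro i
    induction i using WellFoundedLT.induction with
    | ind i ih =>
    intro k'
    rcases lt_trichotomy (g ((g.symm (i, ⟨0, hq⟩)).1, k')).1 i with hlt | heq | hgt
    · exfalso
      set j := (g ((g.symm (i, ⟨0, hq⟩)).1, k')).1 with hj
      set l := (g ((g.symm (i, ⟨0, hq⟩)).1, k')).2 with hl
      have hjl : g ((g.symm (i, ⟨0, hq⟩)).1, k') = (j, l) := rfl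
      have hin : Function.Injective fun k'' => (g ((g.symm (j, ⟨0, hq⟩)).1, k'')).2 := by
        intro k1 k2 h12
        have h3 : g ((g.symm (j, ⟨0, hq⟩)).1, k1) = g ((g.symm (j, ⟨0, hq⟩)).1, k2) :=
          Prod.ext ((ih j hlt k1).trans (ih j hlt k2).symm) h12
        have h4 := g.injective h3
        exact (Prod.mk.inj h4).2
      obtain ⟨k'', hk''⟩ := (Finite.injective_iff_surjective.1 hin) l
      have h5 : g ((g.symm (j, ⟨0, hq⟩)).1, k'') = g ((g.symm (i, ⟨0, hq⟩)).1, k') := by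
        rw [hjl]
        exact Prod.ext (ih j hlt k'') hk''
      have h6 : (g.symm (j, ⟨0, hq⟩)).1 = (g.symm (i, ⟨0, hq⟩)).1 := (Prod.mk.inj (g.injective h5)).1
      have h7 := ih j hlt (g.symm (i, ⟨0, hq⟩)).2
      rw [h6, hg i] at h7
      exact absurd h7.symm hlt.ne
    · exact heq
    · exfalso
      obtain ⟨t, t', htt⟩ := h i _ hgt (g ((g.symm (i, ⟨0, hq⟩)).1, k')).2
      have htt' : c (g ((g.symm (i, ⟨0, hq⟩)).1, (g.symm (i, ⟨0, hq⟩)).2), t) =
          c (g ((g.symm (i, ⟨0, hq⟩)).1, k'), t') := by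
        rw [hg i]
        exact htt
      have h8 := hinj _ _ _ _ _ htt'
      rw [← h8, hg i] at hgt
      exact lt_irrefl _ hgt
  have hφ : Function.Injective fun i : Fin N => (g.symm (i, ⟨0, hq⟩)).1 := by
    intro i j hij
    have h1 := key i ⟨0, hq⟩
    have h2 := key j ⟨0, hq⟩
    simp only at hij
    rw [hij] at h1
    exact h1.symm.trans h2
  intro p p' hp
  obtain ⟨i, hi⟩ := (Finite.injective_iff_surjective.1 hφ) p.1
  simp only at hi
  have h1 : (g p).1 = i := by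
    have := key i p.2
    rwa [hi, Prod.mk.eta] at this
  have h2 : (g p').1 = i := by
    have := key i p'.2
    rwa [hi, hp, Prod.mk.eta] at this
  rw [h1, h2]

/-! ### The theorem -/

theorem kap_zero {N q m M : ℕ} {kap : (Pos N q m → Fin M) → ℂ}
    (hinv : ∀ e : Equiv.Perm (Pos N q m), Slot e → ∀ c,
      kap (fun p => c (e p)) = ((Equiv.Perm.sign e : ℤ) : ℂ) * kap c)
    {c : Pos N q m → Fin M} {p p' : Pos N q m} (hne : p ≠ p') (hs : p.1.1 = p'.1.1)
    (hc : c p = c p') : kap c = 0 := by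
  classical
  have hslot : Slot (Equiv.swap p p') := by
    have h1 : ∀ x, (Equiv.swap p p' x).1.1 = x.1.1 := by
      intro x
      rcases Equiv.swap_apply_eq_iff.1 (rfl : Equiv.swap p p' x = Equiv.swap p p' x) with _
      by_cases hx : x = p
      · subst hx
        rw [Equiv.swap_apply_left]
        exact hs.symm
      · by_cases hx' : x = p'
        · subst hx'
          rw [Equiv.swap_apply_right]
          exact hs
        · rw [Equiv.swap_apply_of_ne_of_ne hx hx']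
    intro x x' hxx
    rw [h1, h1, hxx]
  have h2 := hinv _ hslot c
  have h3 : (fun x => c (Equiv.swap p p' x)) = c := by
    funext x
    by_cases hx : x = p
    · subst hx
      rw [Equiv.swap_apply_left, hc]
    · by_cases hx' : x = p'
      · subst hx'
        rw [Equiv.swap_apply_right, hc]
      · rw [Equiv.swap_apply_of_ne_of_ne hx hx']
  rw [h3, Equiv.Perm.sign_swap hne] at h2
  have h4 : kap c = -kap c := by simpa using h2
  have h5 : (2 : ℂ) * kap c = 0 := by linear_combination h4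
  simpa using h5

theorem dom_core {N q m M : ℕ} (hq : 0 < q) {kap : (Pos N q m → Fin M) → ℂ}
    (hinv : ∀ e : Equiv.Perm (Pos N q m), Slot e → ∀ c,
      kap (fun p => c (e p)) = ((Equiv.Perm.sign e : ℤ) : ℂ) * kap c)
    (hrel : ∀ c : Pos N q m → Fin M, ∑ g : Equiv.Perm (Fin N × Fin q),
      ((Equiv.Perm.sign (blk m g) : ℤ) : ℂ) * kap (fun p => c (blk m g p)) = 0)
    (c : Pos N q m → Fin M)
    (h : ∀ i j : Fin N, i < j → ∀ k : Fin q, ∃ t t', c ((i, ⟨0, hq⟩), t) = c ((j, k), t')) :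
    kap c = 0 := by
  classical
  have h1 : ∀ g : Equiv.Perm (Fin N × Fin q),
      ((Equiv.Perm.sign (blk m g) : ℤ) : ℂ) * kap (fun p => c (blk m g p)) =
        if Slot (blk m g) then kap c else 0 := by
    intro g
    by_cases hg : Slot (blk m g)
    · rw [if_pos hg, hinv _ hg, ← mul_assoc]
      have : ((Equiv.Perm.sign (blk m g) : ℤ) : ℂ) * ((Equiv.Perm.sign (blk m g) : ℤ) : ℂ) = 1 := by
        rcases Int.units_eq_one_or (Equiv.Perm.sign (blk m g)) with h | h <;> rw [h] <;> simp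
      rw [this, one_mul]
    · rw [if_neg hg]
      have h2 : kap (fun p => c (blk m g p)) = 0 := by
        by_contra h3
        apply hg
        have h4 := slots_of_disj hq c h g (by
          intro i k k' t t' hc
          by_contra hk
          exact h3 (kap_zero hinv (p := ((i, k), t)) (p' := ((i, k'), t'))
            (by
              intro h5
              exact hk (Prod.mk.inj (Prod.mk.inj h5).1).2) rfl hc))
        intro p p' hp
        exact h4 p.1 p'.1 hp
      rw [h2, mul_zero]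
  have h5 := hrel c
  rw [Finset.sum_congr rfl fun g _ => h1 g, ← Finset.sum_filter, Finset.sum_const, nsmul_eq_mul] at h5
  rcases mul_eq_zero.1 h5 with h6 | h6
  · exfalso
    have h7 : (1 : Equiv.Perm (Fin N × Fin q)) ∈
        ({g | Slot (blk m g)} : Finset (Equiv.Perm (Fin N × Fin q))) := by
      rw [mem_filter]
      exact ⟨mem_univ _, fun p p' hp => hp⟩
    have h8 : 0 < #({g | Slot (blk m g)} : Finset (Equiv.Perm (Fin N × Fin q))) :=
      card_pos.2 ⟨_, h7⟩
    have h9 : #({g | Slot (blk m g)} : Finset (Equiv.Perm (Fin N × Fin q))) = 0 := by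
      exact_mod_cast h6
    omega
  · exact h6

/-- The rearrangement of the positions inside the slots. -/
def rear {N q m : ℕ} (σ : Fin N → Equiv.Perm (Fin q × Fin m)) : Equiv.Perm (Pos N q m) where
  toFun p := ((p.1.1, ((σ p.1.1).symm (p.1.2, p.2)).1), ((σ p.1.1).symm (p.1.2, p.2)).2)
  invFun p := ((p.1.1, (σ p.1.1 (p.1.2, p.2)).1), (σ p.1.1 (p.1.2, p.2)).2)
  left_inv p := by simp
  right_inv p := by simp

theorem dom2 : Dom2Stmt := by
  classical
  intro N q m M hq hM kap hinv hrel c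
  by_cases hc : ∃ p p' : Pos N q m, p ≠ p' ∧ p.1.1 = p'.1.1 ∧ c p = c p'
  · obtain ⟨p, p', hne, hs, hcc⟩ := hc
    exact kap_zero hinv hne hs hcc
  push Not at hc
  let cs : Fin N → Fin q × Fin m → Fin M := fun i y => c ((i, y.1), y.2)
  have hcs : ∀ i, Function.Injective (cs i) := by
    intro i y y' hy
    by_contra hne
    refine hc ((i, y.1), y.2) ((i, y'.1), y'.2) ?_ rfl hy
    intro h
    apply hne
    obtain ⟨h1, h2⟩ := Prod.mk.inj h
    exact Prod.ext (Prod.mk.inj h1).2 h2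
  let B : Fin N → Finset (Fin M) := fun i => univ.image (cs i)
  have hB : ∀ i, #(B i) = q * m := by
    intro i
    rw [Finset.card_image_of_injective _ (hcs i)]
    simp
  have hs : ∀ i j : Fin N, i < j → 2 * (q * m) - M ≤ #(B i ∩ B j) := by
    intro i j _
    have h1 := Finset.card_union_add_card_inter (B i) (B j)
    have h2 : #(B i ∪ B j) ≤ M := by
      have := Finset.card_le_univ (B i ∪ B j)
      simpa using this
    rw [hB, hB] at h1
    omega
  have hreal : 8 * (q : ℝ) ^ 2 * Real.log (2 * q * N) ≤ ((2 * (q * m) - M : ℕ) : ℝ) := by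
    have h1 : ((2 * (q * m) : ℕ) : ℝ) ≤ ((2 * (q * m) - M : ℕ) : ℝ) + M := by
      exact_mod_cast (by omega : 2 * (q * m) ≤ (2 * (q * m) - M) + M)
    push_cast at h1
    linarith
  obtain ⟨lab, hlab⟩ := union_bound (by omega : 1 ≤ 2 * q - 1) B _ hs (bound_aux hq hreal)
  have hbal := fun i : Fin N => balance hq (fun y => lab (cs i y) i)
  choose σ l hσ using hbal
  have hslot : Slot (rear σ) := by
    intro p p' hp
    exact hp
  have h1 := hinv (rear σ) hslot c
  have h2 : kap (fun p => c (rear σ p)) = 0 := by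
    refine dom_core (by omega : 0 < q) hinv hrel _ ?_
    intro i j hij k
    obtain ⟨x, hx, hxi, hxj⟩ := hlab i j hij (l i ⟨0, by omega⟩) (l j k)
    obtain ⟨hxi', hxj'⟩ := Finset.mem_inter.1 hx
    obtain ⟨y, _, hy⟩ := Finset.mem_image.1 hxi'
    obtain ⟨y', _, hy'⟩ := Finset.mem_image.1 hxj'
    have h3 : (σ i y).1 = ⟨0, by omega⟩ := hσ i y _ (by simp only [hy, hxi])
    have h4 : (σ j y').1 = k := hσ j y' _ (by simp only [hy', hxj])
    refine ⟨(σ i y).2, (σ j y').2, ?_⟩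
    have h5 : (σ i).symm (⟨0, by omega⟩, (σ i y).2) = y := by
      rw [← h3, Prod.mk.eta, Equiv.symm_apply_apply]
    have h6 : (σ j).symm (k, (σ j y').2) = y' := by
      rw [← h4, Prod.mk.eta, Equiv.symm_apply_apply]
    show c ((i, ((σ i).symm (⟨0, _⟩, (σ i y).2)).1), ((σ i).symm (⟨0, _⟩, (σ i y).2)).2) =
      c ((j, ((σ j).symm (k, (σ j y').2)).1), ((σ j).symm (k, (σ j y').2)).2)
    rw [h5, h6]
    show cs i y = cs j y'
    rw [hy, hy']
  rw [h1] at h2
  rcases mul_eq_zero.1 h2 with h3 | h3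
  · exfalso
    rcases Int.units_eq_one_or (Equiv.Perm.sign (rear σ)) with h | h <;> rw [h] at h3 <;> simp at h3
  · exact h3

end Vale.Agent.P181.FL2.H172
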