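import Vale.Agent.P181.FL2.H172.Dom
import Vale.Agent.P181.FL2.H858.Asm

set_option autoImplicit false

/-!
# P181, FL2: the theorem (helper172, helper858): flat shapes up to `2 b - 8 q² ln (2 q a)`
-/

namespace Vale.Agent.P181.FL2.H172

open Vale.Agent.P181 Vale.Agent.P181.H280 Vale.Agent.P181.H867

/-- Foulkes' inequality for `b = q a` and all shapes with `lam_0 + 8 q² ln (2 q a) ≤ 2 b`. -/
theorem flat2 : Flat2Stmt := H858.flat2Stmt dom2

/-- The same for any number `d` of slots and letters of degree `c`; the power map itself is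
injective on the highest weight vectors. -/
theorem flat2G (d q c n M : ℕ) (hq : 1 ≤ q)
    (hM : (M : ℝ) + 8 * (q : ℝ) ^ 2 * Real.log (2 * q * d) ≤ 2 * q * c)
    (lam : Fin n → ℕ) (hlam : ∀ i, lam i ≤ M) :
    FormsVanishG d q c n lam ∧ plethMult d (q * c) n lam ≤ plethMult (q * d) c n lam :=
  ⟨H858.formsVanish2 (dom2 d q c M hq hM) lam hlam, H858.flat2 (dom2 d q c M hq hM) lam hlam⟩

end Vale.Agent.P181.FL2.H172
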